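import Vale.Agent.P060.Ram

/-!
P060: clique minors of order `⌈m / s⌉` in graphs with sparse complement, and in graphs with
independence number at most `s` and small clique number.
-/

theorem Vale.Agent.Results.P060.SmallCliqueNumber.result (s : ℕ) (hs : 2 ≤ s) :
    ∃ c : ℝ, 0 < c ∧ ∀ (V : Type) [Fintype V] (G : SimpleGraph V),
      ((∀ v, ((Gᶜ.neighborSet v).ncard : ℝ) ≤
          c * (Fintype.card V : ℝ) ^ (1 - 1 / (s : ℝ) ^ 2)) ∨
        (G.indepNum ≤ s ∧
          (G.cliqueNum : ℝ) ≤ c * (Fintype.card V : ℝ) ^ (((s : ℝ) + 1) / (s : ℝ) ^ 2))) →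
      Vale.Agent.P060.HasCliqueMinor G ⌈(Fintype.card V : ℝ) / s⌉₊ ∧
        (G.Colorable ⌈(Fintype.card V : ℝ) / s⌉₊ →
          ∀ t, ¬ Vale.Agent.P060.HasCliqueMinor G (t + 1) → G.Colorable t) :=
  Vale.Agent.P060.final s hs
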